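import Vale.Agent.P336.H567.Expansion

/-!
# P336: the narrow bound from sparsification and a good seed

`FF W t K` is the finite family of all pairs `(J, S)` where `S` is the set of points of a subcube
with alive set `J` satisfying at most `K` clauses of width at most `t`.
-/

set_option linter.unusedSectionVars false

namespace Vale.Agent.P336.Expansion

open Finset

noncomputable section

variable {W : Type} [Fintype W] [DecidableEq W]

/-- The points of the subcube satisfying all clauses of a list. -/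
def satSet (L : List (Cl W)) (J : Finset W) (y : W → Bool) : Finset (W → Bool) :=
  (cube J y).filter fun z => ∀ c ∈ L, ¬ ∀ v ∈ c.S, z v = c.c v

theorem sum_satSet (h : (W → Bool) → ℝ) (L : List (Cl W)) (J : Finset W) (y : W → Bool) :
    ∑ z ∈ cube J y, h z * (L.map fun c => ind c z).prod = ∑ z ∈ satSet L J y, h z := by
  classical
  rw [satSet, sum_filter]
  refine sum_congr rfl fun z _ => ?_
  split_ifs with h1
  · have h2 : (L.map fun c => ind c z).prod = 1 := by
      refine List.prod_eq_one fun x hx => ?_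
      obtain ⟨c, hc, rfl⟩ := List.mem_map.1 hx
      rw [ind, if_neg (h1 c hc)]
    rw [h2, mul_one]
  · push Not at h1
    obtain ⟨c, hc, hc2⟩ := h1
    have h2 : (L.map fun c => ind c z).prod = 0 := by
      refine List.prod_eq_zero (List.mem_map.2 ⟨c, hc, ?_⟩)
      rw [ind, if_pos hc2]
    rw [h2, mul_zero]

/-- Codes of clauses of width at most `t`. -/
abbrev CCode (W : Type) (t : ℕ) : Type := Fin t → Option (W × Bool)

/-- The clause with code `k` is false at `z`. -/
def CCode.IsFalse {t : ℕ} (k : CCode W t) (z : W → Bool) : Prop :=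
  ∀ j v b, k j = some (v, b) → z v = b

theorem exists_code {t : ℕ} (c : Cl W) (hc : c.S.card ≤ t) :
    ∃ k : CCode W t, ∀ z, k.IsFalse z ↔ ∀ v ∈ c.S, z v = c.c v := by
  classical
  let e := c.S.equivFin
  refine ⟨fun j => if h : (j : ℕ) < c.S.card then some ((e.symm ⟨j, h⟩ : W), c.c (e.symm ⟨j, h⟩))
    else none, fun z => ?_⟩
  constructor
  · intro h v hv
    have h1 := (e ⟨v, hv⟩).2
    refine h ⟨(e ⟨v, hv⟩ : ℕ), lt_of_lt_of_le h1 hc⟩ v (c.c v) ?_
    simp
  · intro h j v b hk
    simp only at hk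
    split_ifs at hk with h1
    rw [Option.some.injEq, Prod.mk.injEq] at hk
    obtain ⟨rfl, rfl⟩ := hk
    exact h _ (e.symm ⟨j, h1⟩).2

/-- Codes of lists of at most `K` clauses. -/
abbrev FCode (W : Type) (t K : ℕ) : Type := Fin K → Option (CCode W t)

open Classical in
/-- The set described by a code in a subcube. -/
def dec {t K : ℕ} (f : FCode W t K) (J : Finset W) (y : W → Bool) : Finset (W → Bool) :=
  (cube J y).filter fun z => ∀ i k, f i = some k → ¬ k.IsFalse z

theorem exists_fcode {t K : ℕ} (L : List (Cl W)) (hL : L.length ≤ K)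
    (hw : ∀ c ∈ L, c.S.card ≤ t) :
    ∃ f : FCode W t K, ∀ J y, dec f J y = satSet L J y := by
  classical
  choose! k hk using fun (c : Cl W) (hc : c.S.card ≤ t) => exists_code c hc
  refine ⟨fun i => if h : (i : ℕ) < L.length then some (k (L.get ⟨i, h⟩)) else none,
    fun J y => ?_⟩
  unfold dec satSet
  refine filter_congr fun z _ => ?_
  constructor
  · intro h c hc
    obtain ⟨i, hi⟩ := List.get_of_mem hc
    have h1 := h ⟨i, lt_of_lt_of_le i.2 hL⟩ (k c) (by simp [← hi])
    rwa [hk c (hw c hc)] at h1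
  · intro h i k' hik
    simp only at hik
    split_ifs at hik with h1
    rw [Option.some.injEq] at hik
    subst hik
    have hmem : L.get ⟨i, h1⟩ ∈ L := List.get_mem _ _
    rw [hk _ (hw _ hmem)]
    exact h _ hmem

variable (W) in
/-- The family of all pairs (alive set, solution set of a sparse narrow formula). -/
def FF (t K : ℕ) : Finset (Finset W × Finset (W → Bool)) :=
  univ.image fun p : Finset W × (W → Bool) × FCode W t K => (p.1, dec p.2.2 p.1 p.2.1)

theorem card_FF (t K : ℕ) :
    (FF W t K).card ≤ 4 ^ Fintype.card W * (1 + (1 + 2 * Fintype.card W) ^ t) ^ K := by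
  refine card_image_le.trans (le_of_eq ?_)
  simp only [card_univ, Fintype.card_prod, Fintype.card_finset, Fintype.card_pi, prod_const,
    Fintype.card_bool, Fintype.card_option, Fintype.card_fin]
  rw [← mul_assoc, ← mul_pow]
  congr 2
  ring

theorem mem_FF {t K : ℕ} (L : List (Cl W)) (hL : L.length ≤ K) (hw : ∀ c ∈ L, c.S.card ≤ t)
    (J : Finset W) (y : W → Bool) : (J, satSet L J y) ∈ FF W t K := by
  obtain ⟨f, hf⟩ := exists_fcode L hL hw
  exact mem_image.2 ⟨(J, y, f), mem_univ _, by rw [← hf]⟩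

theorem FF_agree {t K : ℕ} {p : Finset W × Finset (W → Bool)} (hp : p ∈ FF W t K) :
    ∃ y, p.2 ⊆ cube p.1 y := by
  classical
  obtain ⟨q, -, rfl⟩ := mem_image.1 hp
  exact ⟨q.2.1, filter_subset _ _⟩

/-- A decomposition into sparse pieces. -/
def SparseDec (t K P : ℕ) (C : ℕ → Cl W) (J : Finset W) (y₀ : W → Bool) (I : Finset ℕ) : Prop :=
  ∃ pieces : List (Finset W × (W → Bool) × List (Cl W)), pieces.length ≤ P ∧
    (∀ p ∈ pieces, p.1 ⊆ J ∧ (∀ c ∈ p.2.2, c.S.card ≤ t) ∧ p.2.2.length ≤ K) ∧
    ∀ h : (W → Bool) → ℝ, val h C J y₀ I = (pieces.map fun p =>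
      ∑ z ∈ cube p.1 p.2.1, h z * (p.2.2.map fun c => ind c z).prod).sum

/-- **Narrow bound** from a decomposition into sparse pieces and a good seed. -/
theorem narrow_bound {t K P : ℕ} {C : ℕ → Cl W} {J : Finset W} {y₀ : W → Bool} {I : Finset ℕ}
    (hdec : SparseDec t K P C J y₀ I) (h : (W → Bool) → ℝ) (Lam : Finset W → ℝ)
    (hmono : ∀ J' ⊆ J, Lam J' ≤ Lam J) (hLam : 0 ≤ Lam J)
    (hgood : ∀ p ∈ FF W t K, |∑ z ∈ p.2, h z| ≤ Lam p.1) :
    |val h C J y₀ I| ≤ P * Lam J := by
  obtain ⟨pieces, hlen, hp, hval⟩ := hdec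
  rw [hval h]
  have key : ∀ l : List (Finset W × (W → Bool) × List (Cl W)), (∀ p ∈ l, p ∈ pieces) →
      |(l.map fun p => ∑ z ∈ cube p.1 p.2.1, h z * (p.2.2.map fun c => ind c z).prod).sum| ≤
        l.length * Lam J := by
    intro l
    induction l with
    | nil => intro _; simp
    | cons p l ih =>
      intro hl
      obtain ⟨h1, h2, h3⟩ := hp p (hl p List.mem_cons_self)
      have h4 := hgood _ (mem_FF p.2.2 h3 h2 p.1 p.2.1)
      simp only at h4
      have h5 := ih fun p' hp' => hl p' (List.mem_cons_of_mem _ hp')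
      rw [List.map_cons, List.sum_cons, sum_satSet, List.length_cons]
      have h6 := hmono _ h1
      push_cast
      calc _ ≤ |∑ z ∈ satSet p.2.2 p.1 p.2.1, h z| + |(l.map fun p =>
            ∑ z ∈ cube p.1 p.2.1, h z * (p.2.2.map fun c => ind c z).prod).sum| := abs_add_le _ _
        _ ≤ Lam J + l.length * Lam J := add_le_add (h4.trans h6) h5
        _ = (l.length + 1) * Lam J := by ring
  refine (key pieces fun _ h => h).trans ?_
  have : (pieces.length : ℝ) ≤ P := by exact_mod_cast hlen
  gcongr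

end

end Vale.Agent.P336.Expansion
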