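import Vale.Agent.P336.H567.Expansion

/-!
# P336: the block model and the correlation bound

The variables are `W × Fin b` (`N = |W|` blocks of `b` variables), `y i = par (block i)` where `par`
changes whenever one variable changes, alive sets contain at most one variable of each block.
-/

set_option linter.unusedSectionVars false

namespace Vale.Agent.P336.Expansion

open Finset

noncomputable section

variable {W : Type} [Fintype W] [DecidableEq W] {b : ℕ}

/-- The alive set described by a choice of at most one variable in each block. -/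
def alive (o : W → Option (Fin b)) : Finset (W × Fin b) :=
  univ.filter fun v => o v.1 = some v.2

theorem mem_alive {o : W → Option (Fin b)} {v : W × Fin b} :
    v ∈ alive o ↔ o v.1 = some v.2 := by simp [alive]

/-- The alive blocks. -/
def supp (o : W → Option (Fin b)) : Finset (W) := univ.filter fun i => o i ≠ none

theorem mem_supp {o : W → Option (Fin b)} {i : W} : i ∈ supp o ↔ o i ≠ none := by
  simp [supp]

theorem alive_injective : Function.Injective (alive (W := W) (b := b)) := by
  intro o o' h
  funext i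
  have key : ∀ j, o i = some j ↔ o' i = some j := by
    intro j
    have h1 : ((i, j) : W × Fin b) ∈ alive o ↔ ((i, j) : W × Fin b) ∈ alive o' := by
      rw [h]
    simpa [mem_alive] using h1
  rcases ho : o i with _ | j
  · rcases ho' : o' i with _ | j
    · rfl
    · have := (key j).2 ho'
      rw [ho] at this
      exact absurd this (by simp)
  · exact ((key j).1 ho).symm

theorem card_alive (o : W → Option (Fin b)) : (alive o).card = (supp o).card := by
  have h1 : supp o = (alive o).image Prod.fst := by
    ext i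
    rw [mem_supp, mem_image]
    constructor
    · intro h
      obtain ⟨j, hj⟩ := Option.ne_none_iff_exists'.1 h
      exact ⟨(i, j), mem_alive.2 hj, rfl⟩
    · rintro ⟨v, hv, rfl⟩
      rw [mem_alive.1 hv]
      simp
  rw [h1, card_image_of_injOn]
  rintro ⟨i, j⟩ hv ⟨i', j'⟩ hv' h
  simp only at h
  subst h
  have e1 := mem_alive.1 (mem_coe.1 hv)
  have e2 := mem_alive.1 (mem_coe.1 hv')
  simp only at e1 e2
  rw [e1, Option.some.injEq] at e2
  rw [e2]

variable (W b) in
/-- The family of alive sets. -/
def FAM : Finset (Finset (W × Fin b)) := univ.image alive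

theorem FAM_down : ∀ A ∈ FAM W b, ∀ D ⊆ A, D ∈ FAM W b := by
  classical
  intro A hA D hD
  obtain ⟨o, -, rfl⟩ := mem_image.1 hA
  refine mem_image.2 ⟨fun i => if ∃ j, o i = some j ∧ (i, j) ∈ D then o i else none,
    mem_univ _, ?_⟩
  ext ⟨i, j⟩
  rw [mem_alive]
  simp only
  constructor
  · intro h
    split_ifs at h with h1
    obtain ⟨j', hj', hD'⟩ := h1
    rw [hj', Option.some.injEq] at h
    rw [← h]
    exact hD'
  · intro h
    have h1 : o i = some j := mem_alive.1 (hD h)
    rw [if_pos ⟨j, h1, h⟩, h1]

/-- Sums over the family of alive sets. -/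
theorem sum_FAM (f : Finset (W × Fin b) → ℝ) :
    ∑ A ∈ FAM W b, f A = ∑ o : W → Option (Fin b), f (alive o) := by
  rw [FAM, sum_image fun o _ o' _ h => alive_injective h]

theorem card_supp_eq (J : Finset (W)) :
    (univ.filter fun o : W → Option (Fin b) => supp o = J).card = b ^ J.card := by
  have h1 : (univ.filter fun o : W → Option (Fin b) => supp o = J) =
      Fintype.piFinset fun i => if i ∈ J then univ.image (some : Fin b → Option (Fin b))
        else {none} := by
    ext o
    rw [mem_filter, Fintype.mem_piFinset]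
    constructor
    · rintro ⟨-, rfl⟩ i
      split_ifs with h
      · obtain ⟨j, hj⟩ := Option.ne_none_iff_exists'.1 (mem_supp.1 h)
        rw [hj]; simp
      · simpa [mem_supp] using h
    · intro h
      refine ⟨mem_univ _, ?_⟩
      ext i
      rw [mem_supp]
      have := h i
      split_ifs at this with hi
      · obtain ⟨j, -, hj⟩ := mem_image.1 this
        rw [← hj]
        simp [hi]
      · rw [mem_singleton] at this
        rw [this]
        simp [hi]
  rw [h1, Fintype.card_piFinset]
  have h2 : ∀ i : W, (if i ∈ J then univ.image (some : Fin b → Option (Fin b))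
      else {none}).card = if i ∈ J then b else 1 := by
    intro i
    split_ifs
    · rw [card_image_of_injective _ (Option.some_injective _), card_univ, Fintype.card_fin]
    · simp
  rw [prod_congr rfl fun i _ => h2 i, prod_ite, prod_const, prod_const_one, mul_one]
  congr 2
  ext i
  simp

theorem sum_supp (G : Finset (W) → ℝ) :
    ∑ o : W → Option (Fin b), G (supp o) = ∑ J : Finset (W), (b : ℝ) ^ J.card * G J := by
  classical
  have h1 := (sum_fiberwise_of_maps_to (s := (univ : Finset (W → Option (Fin b))))
    (t := (univ : Finset (Finset (W)))) (g := supp) (fun _ _ => mem_univ _)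
    (fun o => G (supp o))).symm
  rw [h1]
  refine sum_congr rfl fun J _ => ?_
  rw [sum_congr rfl (g := fun _ => G J) fun o ho => by rw [(mem_filter.1 ho).2], sum_const,
    card_supp_eq]
  simp

/-- For each alive set, every point lies in exactly one subcube. -/
theorem sum_cubes {V : Type} [Fintype V] [DecidableEq V] (A : Finset V)
    (g : (V → Bool) → ℝ) :
    ∑ x ∈ univ.filter (fun x : V → Bool => ∀ v ∈ A, x v = false), ∑ z ∈ cube A x, g z =
      ∑ z, g z := by
  classical
  have h1 : ∀ x ∈ univ.filter (fun x : V → Bool => ∀ v ∈ A, x v = false),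
      cube A x = univ.filter fun z : V → Bool => (fun v => if v ∈ A then false else z v) = x := by
    intro x hx
    rw [mem_filter] at hx
    ext z
    rw [mem_cube, mem_filter]
    constructor
    · intro h
      refine ⟨mem_univ _, ?_⟩
      funext v
      by_cases hv : v ∈ A
      · rw [if_pos hv, hx.2 v hv]
      · rw [if_neg hv, h v hv]
    · rintro ⟨-, h⟩ v hv
      rw [← h]
      simp [hv]
  rw [sum_congr rfl fun x hx => by rw [h1 x hx]]
  refine sum_fiberwise_of_maps_to (fun z _ => ?_) _
  rw [mem_filter]
  exact ⟨mem_univ _, fun v hv => if_pos hv⟩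

theorem card_canonical {V : Type} [Fintype V] [DecidableEq V] (A : Finset V) :
    (univ.filter (fun x : V → Bool => ∀ v ∈ A, x v = false)).card * 2 ^ A.card =
      2 ^ Fintype.card V := by
  classical
  have h1 : (univ.filter fun x : V → Bool => ∀ v ∈ A, x v = false) =
      Fintype.piFinset fun v => if v ∈ A then {false} else (univ : Finset Bool) := by
    ext x
    rw [mem_filter, Fintype.mem_piFinset]
    constructor
    · rintro ⟨-, h⟩ v
      split_ifs with hv
      · rw [mem_singleton]; exact h v hv
      · exact mem_univ _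
    · intro h
      refine ⟨mem_univ _, fun v hv => ?_⟩
      have := h v
      rw [if_pos hv, mem_singleton] at this
      exact this
  rw [h1, Fintype.card_piFinset]
  have h2 : ∀ v : V, (if v ∈ A then {false} else (univ : Finset Bool)).card =
      if v ∈ A then 1 else 2 := by
    intro v
    split_ifs
    · simp
    · simp
  rw [prod_congr rfl fun v _ => h2 v, prod_ite, prod_const_one, one_mul, prod_const, ← pow_add]
  congr 1
  have h3 : (univ.filter fun v => v ∉ A) = Aᶜ := by
    ext v; simp
  rw [h3, card_compl_add_card]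

/-- The projection of a clause to the block variables. -/
def proj (s : W → Fin b) (y₀ : W → Bool) (A : Finset (W × Fin b))
    (C : Cl (W × Fin b)) : Cl (W) where
  S := (C.S ∩ A).image Prod.fst
  c i := xor (C.c (i, s i)) (y₀ i)

section reduction

variable (par : (Fin b → Bool) → Bool)
  (hpar : ∀ w j, par (Function.update w j (!(w j))) = !(par w))

/-- The vector of block values. -/
def yv (z : W × Fin b → Bool) : W → Bool := fun i => par fun j => z (i, j)

/-- The point of the subcube with given block values. -/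
def lift (A : Finset (W × Fin b)) (x : W × Fin b → Bool) (y₀ y : W → Bool) :
    W × Fin b → Bool := fun v => if v ∈ A then xor (y v.1) (y₀ v.1) else x v

include hpar in
theorem par_flip (w w' : Fin b → Bool) (j : Fin b) (h : ∀ j', j' ≠ j → w' j' = w j') :
    par w' = xor (par w) (xor (w' j) (w j)) := by
  by_cases hj : w' j = w j
  · have : w' = w := by
      funext j'
      by_cases h1 : j' = j
      · rw [h1, hj]
      · exact h j' h1
    rw [this]
    simp
  · have : w' = Function.update w j (!(w j)) := by
      funext j'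
      by_cases h1 : j' = j
      · subst h1
        rw [Function.update_self]
        cases h2 : w' j' <;> cases h3 : w j' <;> simp_all
      · rw [Function.update_of_ne h1, h j' h1]
    rw [this, hpar, Function.update_self]
    cases par w <;> cases w j <;> rfl

include hpar in
theorem yv_lift {o : W → Option (Fin b)} {x : W × Fin b → Bool}
    (hx : ∀ v ∈ alive o, x v = false) {y : W → Bool}
    (hy : y ∈ cube (supp o) (yv par x)) : yv par (lift (alive o) x (yv par x) y) = y := by
  funext i
  rcases ho : o i with _ | j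
  · have h1 : i ∉ supp o := by rw [mem_supp, ho]; simp
    rw [mem_cube.1 hy i h1]
    unfold yv
    congr 1
    funext j
    have h2 : ((i, j) : W × Fin b) ∉ alive o := by
      rw [mem_alive, ho]; simp
    simp only [lift, h2, if_false]
  · have hA : ((i, j) : W × Fin b) ∈ alive o := mem_alive.2 ho
    have h1 := par_flip par hpar (fun j => x (i, j))
      (fun j => lift (alive o) x (yv par x) y (i, j)) j (fun j' hj' => by
        have h2 : ((i, j') : W × Fin b) ∉ alive o := by
          rw [mem_alive, ho]
          simp only [Option.some.injEq]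
          exact fun h => hj' h.symm
        simp only [lift, h2, if_false])
    change par (fun j => lift (alive o) x (yv par x) y (i, j)) = y i
    rw [h1]
    simp only [lift, hA, if_true, hx _ hA]
    change xor (yv par x i) (xor (xor (y i) (yv par x i)) false) = y i
    cases yv par x i <;> cases y i <;> rfl

include hpar in
theorem lift_yv {o : W → Option (Fin b)} {x z : W × Fin b → Bool}
    (hx : ∀ v ∈ alive o, x v = false) (hz : z ∈ cube (alive o) x) :
    lift (alive o) x (yv par x) (yv par z) = z := by
  funext v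
  obtain ⟨i, j⟩ := v
  by_cases hA : ((i, j) : W × Fin b) ∈ alive o
  · have h1 := par_flip par hpar (fun j => x (i, j)) (fun j => z (i, j)) j (fun j' hj' => by
        have h2 : ((i, j') : W × Fin b) ∉ alive o := by
          rw [mem_alive]
          rw [mem_alive] at hA
          simp only at hA ⊢
          rw [hA, Option.some.injEq]
          exact fun h => hj' h.symm
        exact mem_cube.1 hz _ h2)
    simp only [lift, hA, if_true]
    change xor (par fun j => z (i, j)) (par fun j => x (i, j)) = z (i, j)
    rw [h1]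
    simp only [hx _ hA]
    cases (par fun j => x (i, j)) <;> cases z (i, j) <;> rfl
  · simp only [lift, hA, if_false]
    exact (mem_cube.1 hz _ hA).symm

theorem yv_mem_cube {o : W → Option (Fin b)} {x z : W × Fin b → Bool}
    (hz : z ∈ cube (alive o) x) : yv par z ∈ cube (supp o) (yv par x) := by
  rw [mem_cube]
  intro i hi
  unfold yv
  congr 1
  funext j
  refine mem_cube.1 hz _ fun h => hi ?_
  rw [mem_supp]
  rw [mem_alive] at h
  simp only at h
  rw [h]
  simp

theorem lift_mem_cube {A : Finset (W × Fin b)} {x : W × Fin b → Bool}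
    {y₀ y : W → Bool} : lift A x y₀ y ∈ cube A x := by
  rw [mem_cube]
  intro v hv
  simp only [lift, hv, if_false]

/-- Reduction of the sums over a subcube to sums over block variables. -/
theorem val_reduce (hpar : ∀ w j, par (Function.update w j (!(w j))) = !(par w))
    (h : (W → Bool) → ℝ) (C : ℕ → Cl (W × Fin b))
    {o : W → Option (Fin b)} {s : W → Fin b} (hs : ∀ i j, o i = some j → j = s i)
    {x : W × Fin b → Bool}
    (hx : ∀ v ∈ alive o, x v = false) {t : ℕ} {I : Finset ℕ}
    (hI : ∀ i ∈ I, Narrow t (C i) (alive o) x) :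
    ∃ I' : Finset ℕ, (∀ i ∈ I', (proj s (yv par x) (alive o) (C i)).S.card ≤ t) ∧
      val (fun z => h (yv par z)) C (alive o) x I =
        val h (fun i => proj s (yv par x) (alive o) (C i)) (supp o) (yv par x) I' := by
  classical
  set A := alive o with hA
  refine ⟨I.filter fun i => ¬ ∃ v ∈ (C i).S, v ∉ A ∧ x v ≠ (C i).c v, fun i hi => ?_, ?_⟩
  · obtain ⟨hi1, hi2⟩ := mem_filter.1 hi
    rcases hI i hi1 with h1 | h1
    · exact absurd h1 hi2
    · exact card_image_le.trans h1
  · unfold val
    refine sum_bij' (fun z _ => yv par z) (fun y _ => lift A x (yv par x) y)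
      (fun z hz => yv_mem_cube par hz) (fun y _ => lift_mem_cube)
      (fun z hz => lift_yv par hpar hx hz) (fun y hy => yv_lift par hpar hx hy) fun z hz => ?_
    congr 1
    rw [← prod_filter_mul_prod_filter_not I
      (fun i => ¬ ∃ v ∈ (C i).S, v ∉ A ∧ x v ≠ (C i).c v) (fun i => ind (C i) z)]
    have e1 : ∏ i ∈ I.filter (fun i => ¬ ¬ ∃ v ∈ (C i).S, v ∉ A ∧ x v ≠ (C i).c v),
        ind (C i) z = 1 := by
      refine prod_eq_one fun i hi => ?_
      obtain ⟨v, hv, hvA, hvx⟩ := not_not.1 (mem_filter.1 hi).2
      rw [ind, if_neg]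
      intro hall
      have := hall v hv
      rw [mem_cube.1 hz v hvA] at this
      exact hvx this
    rw [e1, mul_one]
    refine prod_congr rfl fun i hi => ?_
    have hdead := (mem_filter.1 hi).2
    push Not at hdead
    unfold ind
    congr 1
    apply propext
    have hzl : lift A x (yv par x) (yv par z) = z := lift_yv par hpar hx hz
    constructor
    · intro hall i' hi'
      simp only [proj, mem_image, mem_inter] at hi'
      obtain ⟨⟨i'', j⟩, ⟨hvS, hvA⟩, rfl⟩ := hi'
      have h1 : j = s i'' := hs _ _ (mem_alive.1 hvA)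
      subst h1
      have h2 := hall _ hvS
      rw [← hzl] at h2
      simp only [lift, hvA, if_true] at h2
      simp only [proj]
      rw [← h2]
      cases yv par z i'' <;> cases yv par x i'' <;> rfl
    · rintro hall ⟨i', j⟩ hvS
      by_cases hvA : ((i', j) : W × Fin b) ∈ A
      · have h1 : j = s i' := hs _ _ (mem_alive.1 hvA)
        subst h1
        have h2 := hall i' (by
          simp only [proj, mem_image, mem_inter]
          exact ⟨_, ⟨hvS, hvA⟩, rfl⟩)
        rw [← hzl]
        simp only [lift, hvA, if_true]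
        rw [h2]
        simp only [proj]
        cases (C i).c (i', s i') <;> cases yv par x i' <;> rfl
      · rw [mem_cube.1 hz _ hvA]
        exact hdead _ hvS hvA

end reduction

/-- The numerical condition of the expansion lemma. -/
theorem sum_wide_le {V : Type} [DecidableEq V] {k t b : ℕ} (hb : 0 < b) (ht : 1 ≤ t)
    (hk : 12 * k ≤ b * t) (S : Finset V) (hS : S.card ≤ k) :
    ∑ D ∈ S.powerset.filter (fun D => t < D.card), ((b : ℝ)⁻¹) ^ D.card ≤ 1 / 2 := by
  have hb' : (0 : ℝ) < b := by exact_mod_cast hb
  rw [sum_filter]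
  rw [sum_powerset_apply_card (fun g => if t < g then ((b : ℝ)⁻¹) ^ g else 0)]
  have hterm : ∀ g ∈ range (S.card + 1), S.card.choose g •
      (if t < g then ((b : ℝ)⁻¹) ^ g else 0) ≤ if t < g then (1 / 4 : ℝ) ^ g else 0 := by
    intro g _
    split_ifs with hg
    · rw [nsmul_eq_mul]
      have hg0 : (0 : ℝ) < g := by exact_mod_cast (by omega : 0 < g)
      have h1 : (S.card.choose g : ℝ) ≤ (k : ℝ) ^ g / g.factorial := by
        refine (Nat.choose_le_pow_div g S.card).trans ?_
        have : (S.card : ℝ) ≤ k := by exact_mod_cast hS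
        gcongr
      have h2 : (g : ℝ) ^ g / g.factorial ≤ Real.exp g :=
        Real.pow_div_factorial_le_exp _ hg0.le g
      have h3 : Real.exp (g : ℝ) ≤ 3 ^ g := by
        rw [← Real.exp_one_pow]
        have : Real.exp 1 ≤ 3 := Real.exp_one_lt_three.le
        gcongr
      have h4 : (k : ℝ) * (b : ℝ)⁻¹ ≤ g / 12 := by
        rw [← div_eq_mul_inv, div_le_div_iff₀ hb' (by norm_num)]
        have h5 : (12 * k : ℝ) ≤ b * t := by exact_mod_cast hk
        have h6 : (t : ℝ) ≤ g := by exact_mod_cast hg.le
        have h7 : (b : ℝ) * t ≤ b * g := by gcongr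
        linarith
      calc (S.card.choose g : ℝ) * ((b : ℝ)⁻¹) ^ g
          ≤ (k : ℝ) ^ g / g.factorial * ((b : ℝ)⁻¹) ^ g := by gcongr
        _ = ((k : ℝ) * (b : ℝ)⁻¹) ^ g / g.factorial := by rw [mul_pow]; ring
        _ ≤ ((g : ℝ) / 12) ^ g / g.factorial := by gcongr
        _ = (1 / 12) ^ g * ((g : ℝ) ^ g / g.factorial) := by
            rw [div_pow, one_div, inv_pow]; ring
        _ ≤ (1 / 12) ^ g * 3 ^ g := by gcongr; exact h2.trans h3
        _ = (1 / 4) ^ g := by rw [← mul_pow]; norm_num
    · simp
  refine (sum_le_sum hterm).trans ?_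
  rw [← sum_filter]
  have hsub : (range (S.card + 1)).filter (fun g => t < g) ⊆ Finset.Ico 2 (S.card + 1) := by
    intro g hg
    rw [mem_filter, mem_range] at hg
    rw [Finset.mem_Ico]
    omega
  refine (sum_le_sum_of_subset_of_nonneg hsub fun g _ _ => by positivity).trans ?_
  by_cases hc : 2 ≤ S.card + 1
  · rw [geom_sum_Ico (by norm_num) hc]
    have h0 : (0 : ℝ) ≤ (1 / 4 : ℝ) ^ (S.card + 1) := by positivity
    rw [div_le_iff_of_neg (by norm_num)]
    linarith
  · rw [Finset.Ico_eq_empty (by omega), sum_empty]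
    norm_num

/-- **Correlation bound** from bounds for narrow clauses in the block variables. -/
theorem correlation {b t k M : ℕ} (hb : 0 < b) (ht : 1 ≤ t) (hk : 12 * k ≤ b * t)
    (C : ℕ → Cl (W × Fin b)) (hC : ∀ i < M, (C i).S.card ≤ k)
    (par : (Fin b → Bool) → Bool)
    (hpar : ∀ w j, par (Function.update w j (!(w j))) = !(par w))
    (h : (W → Bool) → ℝ) (B : Finset (W) → ℝ)
    (hB : ∀ (J : Finset (W)) (y₀ : W → Bool) (I : Finset ℕ) (C' : ℕ → Cl (W)),
      (∀ i ∈ I, (C' i).S.card ≤ t) → |val h C' J y₀ I| ≤ B J) :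
    |∑ x : W × Fin b → Bool, h (yv par x) * ∏ i ∈ range M, ind (C i) x| ≤
      2 * 2 ^ (Fintype.card W * b) / 2 ^ Fintype.card W * ∑ J : Finset (W), (1 / 2 : ℝ) ^ J.card * B J := by
  classical
  have hb' : (b : ℝ) ≠ 0 := by exact_mod_cast hb.ne'
  set β : Finset (W × Fin b) → (W × Fin b → Bool) → ℝ :=
    fun A _ => B (A.image Prod.fst) with hβdef
  have himg : ∀ o : W → Option (Fin b), (alive o).image Prod.fst = supp o := by
    intro o
    ext i
    rw [mem_supp, mem_image]
    constructor
    · rintro ⟨v, hv, rfl⟩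
      rw [mem_alive.1 hv]
      simp
    · intro h
      obtain ⟨j, hj⟩ := Option.ne_none_iff_exists'.1 h
      exact ⟨(i, j), mem_alive.2 hj, rfl⟩
  have hβ : ∀ p ∈ Rst (FAM W b), ∀ I ⊆ range M, (∀ i ∈ I, Narrow t (C i) p.1 p.2) →
      |val (fun z => h (yv par z)) C p.1 p.2 I| ≤ β p.1 p.2 := by
    rintro ⟨A, x⟩ hp I _ hI
    obtain ⟨hA, hx⟩ := mem_Rst.1 hp
    obtain ⟨o, -, rfl⟩ := mem_image.1 hA
    have hs : ∀ i j, o i = some j → j = (o i).getD ⟨0, hb⟩ := by
      intro i j hij
      rw [hij]; rfl
    obtain ⟨I', hI', hval⟩ := val_reduce par hpar h C (s := fun i => (o i).getD ⟨0, hb⟩) hs hx hI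
    simp only at hval ⊢
    rw [hval]
    simp only [hβdef, himg]
    exact hB _ _ _ _ hI'
  have hexp := expansion (FAM W b) FAM_down ((b : ℝ)⁻¹) (by positivity) t M C
    (fun i hi => sum_wide_le hb ht hk _ (hC i hi)) (fun z => h (yv par z)) β hβ
  -- sums over restrictions
  have hRst : ∀ f : Finset (W × Fin b) × (W × Fin b → Bool) → ℝ,
      ∑ p ∈ Rst (FAM W b), f p = ∑ A ∈ FAM W b,
        ∑ x ∈ univ.filter (fun x : W × Fin b → Bool => ∀ v ∈ A, x v = false), f (A, x) := by
    intro f
    rw [Rst, sum_filter, sum_product]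
    refine sum_congr rfl fun A _ => ?_
    rw [sum_filter]
  have hleft : ∑ p ∈ Rst (FAM W b), ((b : ℝ)⁻¹) ^ p.1.card *
      val (fun z => h (yv par z)) C p.1 p.2 (range M) =
      2 ^ Fintype.card W * ∑ x : W × Fin b → Bool, h (yv par x) * ∏ i ∈ range M, ind (C i) x := by
    rw [hRst, sum_FAM]
    have h1 : ∀ o : W → Option (Fin b), ∑ x ∈ univ.filter
        (fun x : W × Fin b → Bool => ∀ v ∈ alive o, x v = false),
        ((b : ℝ)⁻¹) ^ (alive o).card * val (fun z => h (yv par z)) C (alive o) x (range M) =
        ((b : ℝ)⁻¹) ^ (supp o).card *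
          ∑ x : W × Fin b → Bool, h (yv par x) * ∏ i ∈ range M, ind (C i) x := by
      intro o
      rw [← mul_sum, card_alive]
      congr 1
      exact sum_cubes (alive o) _
    rw [sum_congr rfl fun o _ => h1 o, ← sum_mul]
    congr 1
    rw [sum_supp (fun J => ((b : ℝ)⁻¹) ^ J.card)]
    have h2 : ∀ J : Finset (W), (b : ℝ) ^ J.card * ((b : ℝ)⁻¹) ^ J.card = 1 := by
      intro J
      rw [← mul_pow, mul_inv_cancel₀ hb', one_pow]
    rw [sum_congr rfl fun J _ => h2 J]
    simp
  have hright : ∑ p ∈ Rst (FAM W b), ((b : ℝ)⁻¹) ^ p.1.card * β p.1 p.2 =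
      2 ^ (Fintype.card W * b) * ∑ J : Finset (W), (1 / 2 : ℝ) ^ J.card * B J := by
    rw [hRst, sum_FAM]
    have h1 : ∀ o : W → Option (Fin b), ∑ x ∈ univ.filter
        (fun x : W × Fin b → Bool => ∀ v ∈ alive o, x v = false),
        ((b : ℝ)⁻¹) ^ (alive o).card * β (alive o) x =
        (fun J : Finset (W) => 2 ^ (Fintype.card W * b) * (((b : ℝ)⁻¹) ^ J.card *
          ((1 / 2 : ℝ) ^ J.card * B J))) (supp o) := by
      intro o
      simp only [hβdef]
      rw [sum_const, nsmul_eq_mul, himg, card_alive]
      have h2 := card_canonical (alive o)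
      rw [Fintype.card_prod, Fintype.card_fin, card_alive] at h2
      have h3 : ((univ.filter (fun x : W × Fin b → Bool => ∀ v ∈ alive o, x v = false)).card
          : ℝ) = 2 ^ (Fintype.card W * b) * (1 / 2) ^ (supp o).card := by
        have h4 : ((univ.filter (fun x : W × Fin b → Bool =>
            ∀ v ∈ alive o, x v = false)).card : ℝ) * 2 ^ (supp o).card = 2 ^ (Fintype.card W * b) := by
          exact_mod_cast h2
        rw [← h4, mul_assoc, ← mul_pow]
        norm_num
      rw [h3]
      ring
    rw [sum_congr rfl fun o _ => h1 o]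
    rw [sum_supp (fun J : Finset (W) => 2 ^ (Fintype.card W * b) * (((b : ℝ)⁻¹) ^ J.card *
          ((1 / 2 : ℝ) ^ J.card * B J))), mul_sum]
    refine sum_congr rfl fun J _ => ?_
    have h2 : (b : ℝ) ^ J.card * ((b : ℝ)⁻¹) ^ J.card = 1 := by
      rw [← mul_pow, mul_inv_cancel₀ hb', one_pow]
    calc (b : ℝ) ^ J.card * (2 ^ (Fintype.card W * b) * (((b : ℝ)⁻¹) ^ J.card * ((1 / 2 : ℝ) ^ J.card * B J)))
        = ((b : ℝ) ^ J.card * ((b : ℝ)⁻¹) ^ J.card) *
            (2 ^ (Fintype.card W * b) * ((1 / 2 : ℝ) ^ J.card * B J)) := by ring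
      _ = _ := by rw [h2, one_mul]
  have habs : |∑ p ∈ Rst (FAM W b), ((b : ℝ)⁻¹) ^ p.1.card *
      val (fun z => h (yv par z)) C p.1 p.2 (range M)| ≤
      ∑ p ∈ Rst (FAM W b), ((b : ℝ)⁻¹) ^ p.1.card *
        |val (fun z => h (yv par z)) C p.1 p.2 (range M)| := by
    refine (abs_sum_le_sum_abs _ _).trans (le_of_eq (sum_congr rfl fun p _ => ?_))
    rw [abs_mul, abs_of_nonneg (by positivity : (0 : ℝ) ≤ ((b : ℝ)⁻¹) ^ p.1.card)]
  have hfin := habs.trans hexp
  rw [hleft, hright, abs_mul, abs_of_nonneg (by positivity : (0 : ℝ) ≤ 2 ^ Fintype.card W)] at hfin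
  have h2N : (0 : ℝ) < 2 ^ Fintype.card W := by positivity
  rw [← mul_le_mul_iff_right₀ h2N]
  refine hfin.trans (le_of_eq ?_)
  field_simp

end

end Vale.Agent.P336.Expansion
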