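import Vale.Agent.P336.H567.Block
import Vale.Agent.P336.H567.Narrow
import Vale.Agent.P336.H663.Global

/-!
# P336: the correlation bound from sparsification and a good seed
-/

namespace Vale.Agent.P336.Expansion

open Finset

noncomputable section

/-- Parity of the bits of a block. -/
def parity {b : ℕ} (w : Fin b → Bool) : Bool := decide (Odd (univ.filter fun j => w j = true).card)

theorem parity_flip {b : ℕ} (w : Fin b → Bool) (j : Fin b) :
    parity (Function.update w j (!(w j))) = !(parity w) := by
  have key : ∀ w : Fin b → Bool, w j = false →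
      parity (Function.update w j true) = !(parity w) := by
    intro w hw
    have h1 : (univ.filter fun j' => Function.update w j true j' = true) =
        insert j (univ.filter fun j' => w j' = true) := by
      ext j'
      simp only [mem_filter, mem_univ, true_and, mem_insert]
      by_cases h : j' = j
      · subst h; simp
      · simp [h]
    have h2 : j ∉ univ.filter fun j' => w j' = true := by simp [hw]
    unfold parity
    rw [h1, card_insert_of_notMem h2, ← decide_not]
    exact decide_eq_decide.2 Nat.odd_add_one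
  cases hw : w j
  · rw [Bool.not_false]; exact key w hw
  · rw [Bool.not_true]
    have h1 := key (Function.update w j false) (by simp)
    have h2 : Function.update w j true = w := by
      rw [← hw]; exact Function.update_eq_self j w
    rw [Function.update_idem, h2] at h1
    rw [h1, Bool.not_not]

variable {W : Type} [Fintype W] [DecidableEq W]

/-- **Correlation bound** for all CNFs of width `≤ k` on `W × Fin b`. -/
theorem corr_of_good {t K P b k : ℕ} (ht : 1 ≤ t) (hb : 0 < b) (hk : 12 * k ≤ b * t)
    (hsp : ∀ (C : ℕ → Cl W) (J : Finset W) (y : W → Bool) (I : Finset ℕ),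
      (∀ i ∈ I, (C i).S.card ≤ t) → SparseDec t K P C J y I)
    (h : (W → Bool) → ℝ) (Lam : Finset W → ℝ)
    (hmono : ∀ J J' : Finset W, J' ⊆ J → Lam J' ≤ Lam J) (hnn : ∀ J, 0 ≤ Lam J)
    (hgood : ∀ p ∈ FF W t K, |∑ z ∈ p.2, h z| ≤ Lam p.1)
    {δ : ℝ} (hδ : 2 / 2 ^ Fintype.card W * (P * ∑ J : Finset W, (1 / 2 : ℝ) ^ J.card * Lam J) ≤ δ) :
    Corr (fun x : W × Fin b → Bool => h (yv parity x)) k δ := by
  intro M C hC
  have h1 := correlation hb ht hk C hC parity parity_flip h (fun J => P * Lam J)
    (fun J y₀ I C' hI => narrow_bound (hsp C' J y₀ I hI) h Lam (fun J' hJ' => hmono J J' hJ')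
      (hnn J) hgood)
  refine h1.trans ?_
  rw [Fintype.card_prod, Fintype.card_fin]
  have h2 : ∑ J : Finset W, (1 / 2 : ℝ) ^ J.card * (P * Lam J) =
      P * ∑ J : Finset W, (1 / 2 : ℝ) ^ J.card * Lam J := by
    rw [mul_sum]
    exact sum_congr rfl fun J _ => by ring
  rw [h2]
  calc 2 * 2 ^ (Fintype.card W * b) / 2 ^ Fintype.card W *
        (P * ∑ J : Finset W, (1 / 2 : ℝ) ^ J.card * Lam J)
      = (2 / 2 ^ Fintype.card W * (P * ∑ J : Finset W, (1 / 2 : ℝ) ^ J.card * Lam J)) *
          2 ^ (Fintype.card W * b) := by ring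
    _ ≤ δ * 2 ^ (Fintype.card W * b) := by gcongr

end

end Vale.Agent.P336.Expansion
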