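import Mathlib

/-!
# P336: the expansion lemma (helper746's Lemma A)

`V` is a finite set of variables.  A clause is a pair `(S, c)`; it is false exactly at the
assignments which agree with `c` on `S`.  A restriction is a pair `(A, x)` of a set `A` of alive
variables and an assignment `x` (only its values off `A` matter).
-/

set_option linter.unusedSectionVars false

namespace Vale.Agent.P336.Expansion

open Finset

noncomputable section

/-- A clause: its set `S` of variables, and the assignment `c` of them which makes it false. -/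
structure Cl (V : Type) where
  /-- the variables of the clause -/
  S : Finset V
  /-- the values making all literals false -/
  c : V → Bool

variable {V : Type} [Fintype V] [DecidableEq V]

/-- The real-valued truth value of a clause. -/
def ind (C : Cl V) (z : V → Bool) : ℝ := if ∀ v ∈ C.S, z v = C.c v then 0 else 1

/-- The subcube of the restriction `(A, x)`. -/
def cube (A : Finset V) (x : V → Bool) : Finset (V → Bool) :=
  univ.filter fun z => ∀ v, v ∉ A → z v = x v

theorem mem_cube {A : Finset V} {x z : V → Bool} : z ∈ cube A x ↔ ∀ v, v ∉ A → z v = x v := by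
  simp [cube]

/-- The sum of `h` over the points of the subcube satisfying the clauses `C i`, `i ∈ I`. -/
def val (h : (V → Bool) → ℝ) (C : ℕ → Cl V) (A : Finset V) (x : V → Bool) (I : Finset ℕ) : ℝ :=
  ∑ z ∈ cube A x, h z * ∏ i ∈ I, ind (C i) z

/-- The clause is falsified by the restriction. -/
def Fals (C : Cl V) (A : Finset V) (x : V → Bool) : Prop := ∀ v ∈ C.S, v ∉ A ∧ x v = C.c v

/-- The clause is satisfied by the restriction or has at most `t` alive variables. -/
def Narrow (t : ℕ) (C : Cl V) (A : Finset V) (x : V → Bool) : Prop :=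
  (∃ v ∈ C.S, v ∉ A ∧ x v ≠ C.c v) ∨ (C.S ∩ A).card ≤ t

/-- The alive set after the clause is made false. -/
def nA (C : Cl V) (A : Finset V) : Finset V := A \ C.S

/-- The assignment after the clause is made false. -/
def nx (C : Cl V) (A : Finset V) (x : V → Bool) : V → Bool :=
  fun v => if v ∈ A ∩ C.S then C.c v else x v

theorem fals_next {t : ℕ} {C : Cl V} {A : Finset V} {x : V → Bool} (h : ¬ Narrow t C A x) :
    Fals C (nA C A) (nx C A x) := by
  intro v hv
  refine ⟨by simp [nA, hv], ?_⟩
  unfold nx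
  split_ifs with h1
  · rfl
  · by_contra h2
    refine h (Or.inl ⟨v, hv, fun hA => h1 (mem_inter.2 ⟨hA, hv⟩), h2⟩)

theorem cube_next {t : ℕ} {C : Cl V} {A : Finset V} {x : V → Bool} (h : ¬ Narrow t C A x) :
    (cube A x).filter (fun z => ∀ v ∈ C.S, z v = C.c v) = cube (nA C A) (nx C A x) := by
  have hx : ∀ v ∈ C.S, v ∉ A → x v = C.c v := by
    intro v hv hA
    by_contra h2
    exact h (Or.inl ⟨v, hv, hA, h2⟩)
  ext z
  simp only [mem_filter, mem_cube, nA, nx, mem_sdiff, mem_inter, not_and, not_not]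
  constructor
  · rintro ⟨h1, h2⟩ v hv
    split_ifs with h3
    · exact h2 v h3.2
    · by_cases hA : v ∈ A
      · exact absurd ⟨hA, hv hA⟩ h3
      · exact h1 v hA
  · intro h1
    refine ⟨fun v hA => ?_, fun v hS => ?_⟩
    · have := h1 v (fun h => absurd h hA)
      rwa [if_neg (fun h3 => hA h3.1)] at this
    · have h4 := h1 v (fun _ => hS)
      split_ifs at h4 with h3
      · exact h4
      · rw [h4]
        exact hx v hS fun hA => h3 ⟨hA, hS⟩

theorem val_insert {t : ℕ} (h : (V → Bool) → ℝ) (C : ℕ → Cl V) {A : Finset V} {x : V → Bool}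
    {I : Finset ℕ} {s : ℕ} (hs : s ∉ I) (hw : ¬ Narrow t (C s) A x) :
    val h C A x (insert s I) = val h C A x I - val h C (nA (C s) A) (nx (C s) A x) I := by
  have h1 : ∀ z, h z * ∏ i ∈ insert s I, ind (C i) z =
      h z * ∏ i ∈ I, ind (C i) z -
        if ∀ v ∈ (C s).S, z v = (C s).c v then h z * ∏ i ∈ I, ind (C i) z else 0 := by
    intro z
    rw [prod_insert hs, ind]
    split_ifs with h2
    · ring
    · ring
  unfold val
  rw [sum_congr rfl fun z _ => h1 z, sum_sub_distrib, ← cube_next hw, sum_filter]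

theorem val_eq_zero (h : (V → Bool) → ℝ) (C : ℕ → Cl V) {A : Finset V} {x : V → Bool}
    {I : Finset ℕ} {r : ℕ} (hr : r ∈ I) (hf : Fals (C r) A x) : val h C A x I = 0 := by
  refine sum_eq_zero fun z hz => ?_
  rw [prod_eq_zero hr, mul_zero]
  rw [ind, if_pos]
  intro v hv
  rw [← (hf v hv).2]
  exact mem_cube.1 hz v (hf v hv).1

open Classical in
/-- The least index of a falsified clause (or `M`). -/
def R (C : ℕ → Cl V) (M : ℕ) (A : Finset V) (x : V → Bool) : ℕ :=
  Nat.find (⟨M, Or.inl rfl⟩ : ∃ i, i = M ∨ Fals (C i) A x)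

theorem R_le (C : ℕ → Cl V) (M : ℕ) (A : Finset V) (x : V → Bool) : R C M A x ≤ M := by
  classical
  exact Nat.find_min' _ (Or.inl rfl)

theorem R_spec (C : ℕ → Cl V) (M : ℕ) (A : Finset V) (x : V → Bool) :
    R C M A x = M ∨ Fals (C (R C M A x)) A x := by
  classical
  exact Nat.find_spec (⟨M, Or.inl rfl⟩ : ∃ i, i = M ∨ Fals (C i) A x)

theorem R_le_of_fals {C : ℕ → Cl V} {M : ℕ} {A : Finset V} {x : V → Bool} {i : ℕ}
    (h : Fals (C i) A x) : R C M A x ≤ i := by
  classical
  exact Nat.find_min' _ (Or.inr h)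

open Classical in
/-- The admissible sets of clauses. -/
def AA (t : ℕ) (C : ℕ → Cl V) (M : ℕ) (A : Finset V) (x : V → Bool) : Finset (Finset ℕ) :=
  (range M).powerset.filter fun I =>
    range (R C M A x) ⊆ I ∧ ∀ i ∈ I, R C M A x ≤ i → Narrow t (C i) A x

theorem mem_AA {t : ℕ} {C : ℕ → Cl V} {M : ℕ} {A : Finset V} {x : V → Bool} {I : Finset ℕ} :
    I ∈ AA t C M A x ↔ I ⊆ range M ∧ range (R C M A x) ⊆ I ∧
      ∀ i ∈ I, R C M A x ≤ i → Narrow t (C i) A x := by
  simp [AA]

/-- The maximal absolute value over the admissible sets of clauses. -/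
def VV (t : ℕ) (h : (V → Bool) → ℝ) (C : ℕ → Cl V) (M : ℕ) (A : Finset V) (x : V → Bool) : ℝ :=
  (((AA t C M A x).sup fun I => ‖val h C A x I‖₊ : NNReal) : ℝ)

theorem VV_nonneg (t : ℕ) (h : (V → Bool) → ℝ) (C : ℕ → Cl V) (M : ℕ) (A : Finset V)
    (x : V → Bool) : 0 ≤ VV t h C M A x := NNReal.coe_nonneg _

theorem le_VV {t : ℕ} {h : (V → Bool) → ℝ} {C : ℕ → Cl V} {M : ℕ} {A : Finset V}
    {x : V → Bool} {I : Finset ℕ} (hI : I ∈ AA t C M A x) :
    |val h C A x I| ≤ VV t h C M A x := by
  have h1 := Finset.le_sup (f := fun I => ‖val h C A x I‖₊) hI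
  have h2 : ((‖val h C A x I‖₊ : NNReal) : ℝ) ≤ VV t h C M A x := NNReal.coe_le_coe.2 h1
  simpa using h2

theorem VV_le {t : ℕ} {h : (V → Bool) → ℝ} {C : ℕ → Cl V} {M : ℕ} {A : Finset V}
    {x : V → Bool} {B : ℝ} (hB : 0 ≤ B) (h1 : ∀ I ∈ AA t C M A x, |val h C A x I| ≤ B) :
    VV t h C M A x ≤ B := by
  lift B to NNReal using hB
  refine NNReal.coe_le_coe.2 (Finset.sup_le fun I hI => ?_)
  rw [← NNReal.coe_le_coe]
  simpa using h1 I hI

theorem Narrow.next {t : ℕ} {C C' : Cl V} {A : Finset V} {x : V → Bool} (h : Narrow t C A x) :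
    Narrow t C (nA C' A) (nx C' A x) := by
  rcases h with ⟨v, hv, hA, hx⟩ | h
  · refine Or.inl ⟨v, hv, fun h => hA (mem_sdiff.1 h).1, ?_⟩
    unfold nx
    rwa [if_neg fun h => hA (mem_inter.1 h).1]
  · refine Or.inr (le_trans (card_le_card ?_) h)
    exact inter_subset_inter_left sdiff_subset

open Classical in
/-- The indices of the wide clauses which become the first falsified clause. -/
def W (t : ℕ) (C : ℕ → Cl V) (M : ℕ) (A : Finset V) (x : V → Bool) : Finset ℕ :=
  (range M).filter fun s =>
    ¬ Narrow t (C s) A x ∧ R C M (nA (C s) A) (nx (C s) A x) = s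

/-- The telescoping inequality. -/
theorem VV_le_add {t : ℕ} {h : (V → Bool) → ℝ} {C : ℕ → Cl V} {M : ℕ} {A : Finset V}
    {x : V → Bool} {β : ℝ}
    (hβ : ∀ I ⊆ range M, (∀ i ∈ I, Narrow t (C i) A x) → |val h C A x I| ≤ β) :
    VV t h C M A x ≤ β + ∑ s ∈ W t C M A x, VV t h C M (nA (C s) A) (nx (C s) A x) := by
  classical
  have hβ0 : 0 ≤ β := (abs_nonneg _).trans (hβ ∅ (empty_subset _) (by simp))
  refine VV_le (add_nonneg hβ0 (sum_nonneg fun s _ => VV_nonneg _ _ _ _ _ _)) fun I hI => ?_
  obtain ⟨hIM, hRI, hnar⟩ := mem_AA.1 hI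
  have key : ∀ j ≤ M, |val h C A x (I.filter fun i => i < j ∨ Narrow t (C i) A x)| ≤
      β + ∑ s ∈ (W t C M A x).filter (· < j), VV t h C M (nA (C s) A) (nx (C s) A x) := by
    intro j
    induction j with
    | zero =>
      intro _
      have h0 : (W t C M A x).filter (· < 0) = ∅ := by
        ext s; simp
      rw [h0, sum_empty, add_zero]
      refine hβ _ ((filter_subset _ _).trans hIM) fun i hi => ?_
      simpa using (mem_filter.1 hi).2
    | succ j ih =>
      intro hj
      have ih := ih (by omega)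
      have hmono : ∑ s ∈ (W t C M A x).filter (· < j), VV t h C M (nA (C s) A) (nx (C s) A x) ≤
          ∑ s ∈ (W t C M A x).filter (· < j + 1),
            VV t h C M (nA (C s) A) (nx (C s) A x) := by
        refine sum_le_sum_of_subset_of_nonneg (fun s hs => ?_) fun s _ _ => VV_nonneg _ _ _ _ _ _
        rw [mem_filter] at hs ⊢
        exact ⟨hs.1, by omega⟩
      by_cases hjI : j ∈ I ∧ ¬ Narrow t (C j) A x
      · obtain ⟨hjI, hw⟩ := hjI
        set J := I.filter fun i => i < j ∨ Narrow t (C i) A x with hJ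
        have hjJ : j ∉ J := by
          rw [hJ, mem_filter]
          rintro ⟨-, h1 | h1⟩
          · omega
          · exact hw h1
        have hins : (I.filter fun i => i < j + 1 ∨ Narrow t (C i) A x) = insert j J := by
          ext i
          rw [hJ, mem_insert, mem_filter, mem_filter]
          constructor
          · rintro ⟨h1, h2⟩
            by_cases hij : i = j
            · exact Or.inl hij
            · refine Or.inr ⟨h1, ?_⟩
              rcases h2 with h2 | h2
              · exact Or.inl (by omega)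
              · exact Or.inr h2
          · rintro (h1 | ⟨h1, h2⟩)
            · rw [h1]; exact ⟨hjI, Or.inl (by omega)⟩
            · refine ⟨h1, ?_⟩
              rcases h2 with h2 | h2
              · exact Or.inl (by omega)
              · exact Or.inr h2
        rw [hins, val_insert h C hjJ hw]
        have hjR : j < R C M A x := by
          by_contra h1
          exact hw (hnar j hjI (not_lt.1 h1))
        have hf := fals_next hw
        have hR' : R C M (nA (C j) A) (nx (C j) A x) ≤ j := R_le_of_fals hf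
        rcases hR'.lt_or_eq with hlt | heq
        · -- an earlier clause is falsified
          have hz : val h C (nA (C j) A) (nx (C j) A x) J = 0 := by
            set r := R C M (nA (C j) A) (nx (C j) A x) with hr
            have hrI : r ∈ I := hRI (mem_range.2 (by omega))
            have hrJ : r ∈ J := by
              rw [hJ, mem_filter]; exact ⟨hrI, Or.inl hlt⟩
            refine val_eq_zero h C hrJ ?_
            rcases R_spec C M (nA (C j) A) (nx (C j) A x) with h1 | h1
            · omega
            · exact h1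
          rw [hz, sub_zero]
          exact ih.trans (add_le_add_right hmono _)
        · have hJA : J ∈ AA t C M (nA (C j) A) (nx (C j) A x) := by
            rw [mem_AA, heq]
            refine ⟨(filter_subset _ _).trans hIM, fun i hi => ?_, fun i hi hij => ?_⟩
            · rw [mem_range] at hi
              rw [hJ, mem_filter]
              exact ⟨hRI (mem_range.2 (by omega)), Or.inl hi⟩
            · rw [hJ, mem_filter] at hi
              rcases hi.2 with h1 | h1
              · omega
              · exact h1.next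
          have h1 : |val h C A x J - val h C (nA (C j) A) (nx (C j) A x) J| ≤
              |val h C A x J| + |val h C (nA (C j) A) (nx (C j) A x) J| := abs_sub _ _
          have h2 := le_VV (h := h) hJA
          have hjW : j ∈ W t C M A x := by
            simp only [W, mem_filter, mem_range]
            exact ⟨by omega, hw, heq⟩
          have h3 : (W t C M A x).filter (· < j + 1) =
              insert j ((W t C M A x).filter (· < j)) := by
            ext s
            rw [mem_insert, mem_filter, mem_filter]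
            constructor
            · rintro ⟨h4, h5⟩
              by_cases hs : s = j
              · exact Or.inl hs
              · exact Or.inr ⟨h4, by omega⟩
            · rintro (h4 | ⟨h4, h5⟩)
              · rw [h4]; exact ⟨hjW, by omega⟩
              · exact ⟨h4, by omega⟩
          rw [h3, sum_insert (by simp)]
          linarith
      · have heq : (I.filter fun i => i < j + 1 ∨ Narrow t (C i) A x) =
            I.filter fun i => i < j ∨ Narrow t (C i) A x := by
          refine filter_congr fun i hi => ?_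
          constructor
          · rintro (h1 | h1)
            · by_cases hij : i = j
              · subst hij
                by_cases hn : Narrow t (C i) A x
                · exact Or.inr hn
                · exact absurd ⟨hi, hn⟩ hjI
              · exact Or.inl (by omega)
            · exact Or.inr h1
          · rintro (h1 | h1)
            · exact Or.inl (by omega)
            · exact Or.inr h1
        rw [heq]
        exact ih.trans (add_le_add_right hmono _)
  have hM := key M le_rfl
  have h1 : (I.filter fun i => i < M ∨ Narrow t (C i) A x) = I := by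
    refine filter_true_of_mem fun i hi => Or.inl (mem_range.1 (hIM hi))
  have h2 : (W t C M A x).filter (· < M) = W t C M A x := by
    refine filter_true_of_mem fun s hs => ?_
    simp only [W, mem_filter, mem_range] at hs
    exact hs.1
  rwa [h1, h2] at hM

/-- The restrictions with alive set in `FAM`, in canonical form. -/
def Rst (FAM : Finset (Finset V)) : Finset (Finset V × (V → Bool)) :=
  (FAM ×ˢ univ).filter fun p => ∀ v ∈ p.1, p.2 v = false

theorem mem_Rst {FAM : Finset (Finset V)} {p : Finset V × (V → Bool)} :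
    p ∈ Rst FAM ↔ p.1 ∈ FAM ∧ ∀ v ∈ p.1, p.2 v = false := by
  simp [Rst]

theorem next_mem_Rst {FAM : Finset (Finset V)} (hdown : ∀ A ∈ FAM, ∀ D ⊆ A, D ∈ FAM)
    {p : Finset V × (V → Bool)} (hp : p ∈ Rst FAM) (C : Cl V) :
    (nA C p.1, nx C p.1 p.2) ∈ Rst FAM := by
  rw [mem_Rst] at hp ⊢
  refine ⟨hdown _ hp.1 _ sdiff_subset, fun v hv => ?_⟩
  simp only [nA, mem_sdiff] at hv
  simp only [nx, mem_inter, hv.1, hv.2, and_false, if_false]
  exact hp.2 v hv.1

/-- **Expansion lemma.** -/
theorem expansion (FAM : Finset (Finset V)) (hdown : ∀ A ∈ FAM, ∀ D ⊆ A, D ∈ FAM)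
    (q : ℝ) (hq : 0 ≤ q) (t M : ℕ) (C : ℕ → Cl V)
    (hC : ∀ i < M, ∑ D ∈ (C i).S.powerset.filter (fun D => t < D.card), q ^ D.card ≤ 1 / 2)
    (h : (V → Bool) → ℝ) (β : Finset V → (V → Bool) → ℝ)
    (hβ : ∀ p ∈ Rst FAM, ∀ I ⊆ range M, (∀ i ∈ I, Narrow t (C i) p.1 p.2) →
      |val h C p.1 p.2 I| ≤ β p.1 p.2) :
    ∑ p ∈ Rst FAM, q ^ p.1.card * |val h C p.1 p.2 (range M)| ≤
      2 * ∑ p ∈ Rst FAM, q ^ p.1.card * β p.1 p.2 := by
  classical
  set Vt : ℝ := ∑ p ∈ Rst FAM, q ^ p.1.card * VV t h C M p.1 p.2 with hVt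
  -- the trivial bound by `VV`
  have h0 : ∑ p ∈ Rst FAM, q ^ p.1.card * |val h C p.1 p.2 (range M)| ≤ Vt := by
    refine sum_le_sum fun p _ => mul_le_mul_of_nonneg_left ?_ (pow_nonneg hq _)
    rcases R_spec C M p.1 p.2 with h1 | h1
    · refine le_VV (mem_AA.2 ⟨Subset.rfl, ?_, fun i hi hR => ?_⟩)
      · rw [h1]
      · rw [h1] at hR
        exact absurd (mem_range.1 hi) (not_lt.2 hR)
    · by_cases hR : R C M p.1 p.2 < M
      · rw [val_eq_zero h C (mem_range.2 hR) h1, abs_zero]
        exact VV_nonneg _ _ _ _ _ _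
      · have h2 : R C M p.1 p.2 = M := le_antisymm (R_le _ _ _ _) (not_lt.1 hR)
        refine le_VV (mem_AA.2 ⟨Subset.rfl, ?_, fun i hi hR => ?_⟩)
        · rw [h2]
        · rw [h2] at hR
          exact absurd (mem_range.1 hi) (not_lt.2 hR)
  -- the pairs (restriction, wide clause)
  set P : Finset ((_ : Finset V × (V → Bool)) × ℕ) :=
    (Rst FAM).sigma fun p => W t C M p.1 p.2 with hP
  set Q : Finset ((_ : Finset V × (V → Bool)) × Finset V) :=
    ((Rst FAM).filter fun p => R C M p.1 p.2 < M).sigma fun p =>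
      (C (R C M p.1 p.2)).S.powerset.filter fun D => t < D.card with hQ
  set Φ : ((_ : Finset V × (V → Bool)) × ℕ) → ((_ : Finset V × (V → Bool)) × Finset V) :=
    fun y => ⟨(nA (C y.2) y.1.1, nx (C y.2) y.1.1 y.1.2), y.1.1 ∩ (C y.2).S⟩ with hΦ
  set g : ((_ : Finset V × (V → Bool)) × Finset V) → ℝ :=
    fun y => q ^ y.1.1.card * q ^ y.2.card * VV t h C M y.1.1 y.1.2 with hg
  have hmap : ∀ y ∈ P, Φ y ∈ Q := by
    rintro ⟨⟨A, x⟩, s⟩ hy
    rw [hP, mem_sigma] at hy
    obtain ⟨hy1, hy2⟩ := hy
    simp only [W, mem_filter, mem_range] at hy2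
    obtain ⟨hsM, hw, hR⟩ := hy2
    rw [hQ, mem_sigma, mem_filter]
    refine ⟨⟨next_mem_Rst hdown hy1 _, ?_⟩, ?_⟩
    · change R C M (nA (C s) A) (nx (C s) A x) < M
      rw [hR]; exact hsM
    · change A ∩ (C s).S ∈ (C (R C M (nA (C s) A) (nx (C s) A x))).S.powerset.filter _
      rw [hR, mem_filter, mem_powerset]
      refine ⟨inter_subset_right, ?_⟩
      by_contra h1
      exact hw (Or.inr (by rw [inter_comm]; exact not_lt.1 h1))
  have hinj : ∀ y ∈ P, ∀ y' ∈ P, Φ y = Φ y' → y = y' := by
    rintro ⟨⟨A, x⟩, s⟩ hy ⟨⟨A', x'⟩, s'⟩ hy' heq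
    rw [hP, mem_sigma] at hy hy'
    obtain ⟨hy1, hy2⟩ := hy
    obtain ⟨hy1', hy2'⟩ := hy'
    simp only [W, mem_filter, mem_range] at hy2 hy2'
    simp only [hΦ, Sigma.mk.injEq, Prod.mk.injEq, heq_eq_eq] at heq
    obtain ⟨⟨h1, h2⟩, h3⟩ := heq
    have hs : s = s' := by
      rw [← hy2.2.2, ← hy2'.2.2, h1, h2]
    subst hs
    have hA : A = A' := by
      rw [← sdiff_union_inter A (C s).S, ← sdiff_union_inter A' (C s).S, h3]
      congr 1
    subst hA
    have hx : x = x' := by
      funext v
      by_cases hv : v ∈ A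
      · exact ((mem_Rst.1 hy1).2 v hv).trans ((mem_Rst.1 hy1').2 v hv).symm
      · have h4 := congrFun h2 v
        simpa [nx, hv] using h4
    rw [hx]
  have hval : ∀ y ∈ P, q ^ y.1.1.card * VV t h C M (nA (C y.2) y.1.1) (nx (C y.2) y.1.1 y.1.2) =
      g (Φ y) := by
    rintro ⟨⟨A, x⟩, s⟩ _
    simp only [hg, hΦ, nA]
    rw [← pow_add, card_sdiff_add_card_inter]
  have hnn : ∀ y ∈ Q, 0 ≤ g y := fun y _ =>
    mul_nonneg (mul_nonneg (pow_nonneg hq _) (pow_nonneg hq _)) (VV_nonneg _ _ _ _ _ _)
  have h2 : ∑ p ∈ Rst FAM, q ^ p.1.card *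
      ∑ s ∈ W t C M p.1 p.2, VV t h C M (nA (C s) p.1) (nx (C s) p.1 p.2) ≤ 1 / 2 * Vt := by
    calc ∑ p ∈ Rst FAM, q ^ p.1.card *
          ∑ s ∈ W t C M p.1 p.2, VV t h C M (nA (C s) p.1) (nx (C s) p.1 p.2)
        = ∑ y ∈ P, q ^ y.1.1.card * VV t h C M (nA (C y.2) y.1.1) (nx (C y.2) y.1.1 y.1.2) := by
          rw [hP, sum_sigma]
          exact sum_congr rfl fun p _ => mul_sum _ _ _
      _ = ∑ y ∈ P, g (Φ y) := sum_congr rfl hval
      _ = ∑ y ∈ P.image Φ, g y := (sum_image fun y hy y' hy' h => hinj y hy y' hy' h).symm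
      _ ≤ ∑ y ∈ Q, g y := by
          refine sum_le_sum_of_subset_of_nonneg (fun y hy => ?_) fun y hy _ => hnn y hy
          obtain ⟨y', hy', rfl⟩ := mem_image.1 hy
          exact hmap y' hy'
      _ = ∑ p ∈ (Rst FAM).filter (fun p => R C M p.1 p.2 < M),
            ∑ D ∈ (C (R C M p.1 p.2)).S.powerset.filter (fun D => t < D.card),
              q ^ p.1.card * q ^ D.card * VV t h C M p.1 p.2 := by
          rw [hQ, sum_sigma]
      _ ≤ ∑ p ∈ (Rst FAM).filter (fun p => R C M p.1 p.2 < M),
            1 / 2 * (q ^ p.1.card * VV t h C M p.1 p.2) := by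
          refine sum_le_sum fun p hp => ?_
          have h3 := hC _ (mem_filter.1 hp).2
          have h4 : ∑ D ∈ (C (R C M p.1 p.2)).S.powerset.filter (fun D => t < D.card),
              q ^ p.1.card * q ^ D.card * VV t h C M p.1 p.2 =
              (∑ D ∈ (C (R C M p.1 p.2)).S.powerset.filter (fun D => t < D.card), q ^ D.card) *
                (q ^ p.1.card * VV t h C M p.1 p.2) := by
            rw [sum_mul]
            exact sum_congr rfl fun D _ => by ring
          rw [h4]
          exact mul_le_mul_of_nonneg_right h3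
            (mul_nonneg (pow_nonneg hq _) (VV_nonneg _ _ _ _ _ _))
      _ ≤ ∑ p ∈ Rst FAM, 1 / 2 * (q ^ p.1.card * VV t h C M p.1 p.2) :=
          sum_le_sum_of_subset_of_nonneg (filter_subset _ _) fun p _ _ =>
            mul_nonneg (by norm_num) (mul_nonneg (pow_nonneg hq _) (VV_nonneg _ _ _ _ _ _))
      _ = 1 / 2 * Vt := by rw [hVt, mul_sum]
  have h5 : Vt ≤ ∑ p ∈ Rst FAM, q ^ p.1.card * β p.1 p.2 + 1 / 2 * Vt := by
    calc Vt ≤ ∑ p ∈ Rst FAM, q ^ p.1.card * (β p.1 p.2 +
          ∑ s ∈ W t C M p.1 p.2, VV t h C M (nA (C s) p.1) (nx (C s) p.1 p.2)) := by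
          refine sum_le_sum fun p hp => mul_le_mul_of_nonneg_left ?_ (pow_nonneg hq _)
          exact VV_le_add (hβ p hp)
      _ = ∑ p ∈ Rst FAM, q ^ p.1.card * β p.1 p.2 + ∑ p ∈ Rst FAM, q ^ p.1.card *
            ∑ s ∈ W t C M p.1 p.2, VV t h C M (nA (C s) p.1) (nx (C s) p.1 p.2) := by
          rw [← sum_add_distrib]
          exact sum_congr rfl fun p _ => mul_add _ _ _
      _ ≤ _ := add_le_add_right h2 _
  linarith

end

end Vale.Agent.P336.Expansion
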